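import Vale.Agent.P014T.Sh.Br
import Vale.Agent.P014T.Ht.Can
import Vale.Agent.P014G.Br

/-! # P014T: the invariants of two equations of the same curve -/

set_option autoImplicit false
set_option linter.all false

open WeierstrassCurve NumberField
open scoped Classical

noncomputable section

namespace Vale.Agent.P014T.Tv

open Vale.Agent.P014 (realPeriod torsionOrder shaPrimary psi)
open Vale.Agent.P022 (Qb GQ IsConj)
open Vale.Agent.P022D.W (dec)
open Vale.Agent.P022D.Loc2 (PP galQ algQ)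
open Vale.Agent.P022E.GW (Ov)
open Sm

theorem ex_cj : ∃ c : GQ, IsConj c := by
  have := galQ
  have := algQ
  let φ : Qb →+* ℂ := (IsAlgClosed.lift (R := ℚ) (S := Qb) (M := ℂ)).toRingHom
  let _ : Algebra Qb ℂ := φ.toAlgebra
  have : IsScalarTower ℚ Qb ℂ := IsScalarTower.of_algebraMap_eq' (Subsingleton.elim _ _)
  let χ : ℂ ≃ₐ[ℚ] ℂ := Complex.conjAe.restrictScalars ℚ
  exact ⟨χ.restrictNormal Qb, φ, fun x => AlgEquiv.restrictNormal_commutes χ Qb x⟩

theorem ex_ov {p : ℕ} (hp : p.Prime) : ∃ P, Ov p P :=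
  haveI := Fact.mk hp
  ⟨_, Sh.Lp.ov_PP⟩

theorem ex_ovs : ∃ P : ℕ → Ideal (𝓞 Qb), ∀ p : ℕ, p.Prime → Ov p (P p) := by
  choose P h using @ex_ov
  exact ⟨fun p => if k : p.Prime then P k else ⊥, fun p k => by simpa only [dif_pos k] using h k⟩

variable {E E' : WeierstrassCurve ℚ} {u r s t u' r' s' t' : ℚ}

theorem per0 {a b : ℚ} (h : Md E a b u r s t) : realPeriod E = |(u : ℝ)| *
    (2 * ∫ x in {x : ℝ | 0 < 4 * x ^ 3 + 4 * a * x + 4 * b}, 1 / √(4 * x ^ 3 + 4 * a * x + 4 * b)) := by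
  have u0 : (u : ℝ) ≠ 0 := Rat.cast_ne_zero.2 h.ne
  obtain ⟨-, -, -, rfl, rfl⟩ := h.eq
  rw [realPeriod, P014G.affine_integral
    (fun x => 4 * x ^ 3 + 4 * ((-(u ^ 4 * E.c₄) / 48 : ℚ) : ℝ) * x +
      4 * ((-(u ^ 6 * E.c₆) / 864 : ℚ) : ℝ)) (by fun_prop)
    (d := (u : ℝ)⁻¹ ^ 2) (by positivity) (-(u ^ 2 * E.b₂ / 12)) (psi E) (fun s => by
      simp only [psi, WeierstrassCurve.c₄, WeierstrassCurve.c₆]
      push_cast
      field_simp
      ring), Real.sqrt_sq_eq_abs, abs_inv]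
  field_simp

/-- **the real period** -/
theorem per {a b : ℚ} (h : Md E a b u r s t) (h' : Md E' a b u' r' s' t') :
    realPeriod E = (|u / u'| : ℚ) * realPeriod E' := by
  have u0 : (u' : ℝ) ≠ 0 := Rat.cast_ne_zero.2 h'.ne
  rw [per0 h, per0 h']
  push_cast
  rw [abs_div]
  field_simp

variable {A B : ℤ} (h : Md E A B u r s t) (h' : Md E' A B u' r' s' t')

/-- the points of two equations -/
def tr : E.toAffine.Point ≃+ E'.toAffine.Point := (eqv h).trans (eqv h').symm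

theorem up_tr (P : E.toAffine.Point) : up h' (tr h h' P) = up h P :=
  congrArg Subtype.val ((eqv h').apply_symm_apply (eqv h P))

theorem tor_tr {P : E.toAffine.Point} : IsOfFinAddOrder (tr h h' P) ↔ IsOfFinAddOrder P :=
  Function.Injective.isOfFinAddOrder_iff (f := (tr h h').toAddMonoidHom) (tr h h').injective

theorem bas_tr {k : ℕ} {Q : Fin k → E.toAffine.Point} (b : IsBasisModTorsion E Q) :
    IsBasisModTorsion E' fun i => tr h h' (Q i) := fun R => by
  obtain ⟨R, rfl⟩ := (tr h h').surjective R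
  simpa only [← map_zsmul, ← map_sum, ← map_sub, tor_tr] using b R

include h h' in
theorem tors_tr : torsionOrder E = torsionOrder E' :=
  Nat.card_congr ((tr h h').toEquiv.subtypeEquiv fun _ => (tor_tr h h').symm)

variable [E.IsElliptic] [E'.IsElliptic]

theorem can_tr (P : E.toAffine.Point) : canHeight E' (tr h h' P) = canHeight E P := by
  obtain ⟨v, pl⟩ := Wm.ex_pl
  rw [Cn.can_eq pl h, Cn.can_eq pl h', up_tr]

theorem reg_tr {k : ℕ} (Q : Fin k → E.toAffine.Point) :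
    (regulator E' fun i => tr h h' (Q i)) = regulator E Q := by
  simp only [regulator, heightPairing, ← map_add, can_tr]

include h h'

theorem sha_tr : Nat.card (shaPrimary E 2) = Nat.card (shaPrimary E' 2) ∧
    (Finite (shaPrimary E 2) ↔ Finite (shaPrimary E' 2)) := by
  obtain ⟨c, hc⟩ := ex_cj
  obtain ⟨P, hP⟩ := ex_ovs
  have a : ∀ l : ℕ, l.Prime → (l : ℤ) ∣ 2 * (4 * A ^ 3 + 27 * B ^ 2) →
      l ∈ (2 * (4 * A ^ 3 + 27 * B ^ 2)).natAbs.primeFactors := fun l p d =>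
    Nat.mem_primeFactors.2 ⟨p, Int.natCast_dvd.1 d,
      Int.natAbs_ne_zero.2 (mul_ne_zero two_ne_zero h.hD)⟩
  have b := fun p (m : p ∈ (2 * (4 * A ^ 3 + 27 * B ^ 2)).natAbs.primeFactors) =>
    hP p (Nat.prime_of_mem_primeFactors m)
  exact ⟨(Sh.card_sha h a hc b).trans (Sh.card_sha h' a hc b).symm,
    (Sh.fin_sha h a hc b).trans (Sh.fin_sha h' a hc b).symm⟩

end Vale.Agent.P014T.Tv
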